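import Vale.Agent.P028.Tame.MainTame
import Vale.Agent.P028.Tame.Reduce
import Vale.Agent.P028.Tame.Corollaries

/-! Weak inhomogeneous Duffin–Schaeffer: a loss of `(log log q) ^ ε` at most, and none for small
functions. -/

namespace Vale.Agent.Results.P028.LogLogDivergence

open MeasureTheory

/-- For every shift: full measure under divergence weakened by `(log log (q + 16)) ^ ε`; without any
weakening for `ψ q ≤ exp (-(log log (q + 16)) ^ (1 + δ))`; and both at once, with the loss only at the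
denominators where `ψ` is large, there as a power of `log (3 + 1 / ψ q)`. -/
theorem result :
    (∀ (γ : ℝ) (ψ : ℕ → ℝ) (ε : ℝ), (∀ q, 0 ≤ ψ q) → 0 < ε →
      ¬ Summable (fun q : ℕ => (Nat.totient q : ℝ) * ψ q /
        ((q : ℝ) * Real.log (Real.log ((q : ℝ) + 16)) ^ ε)) →
      ∀ᵐ x : ℝ, {q : ℕ | 0 < q ∧ ∃ a : ℤ, |(q : ℝ) * x - a - γ| < ψ q}.Infinite) ∧
    (∀ (γ : ℝ) (ψ : ℕ → ℝ) (δ : ℝ), (∀ q, 0 ≤ ψ q) → 0 < δ →
      (∀ q : ℕ, ψ q ≤ Real.exp (-(Real.log (Real.log ((q : ℝ) + 16)) ^ (1 + δ)))) →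
      ¬ Summable (fun q : ℕ => (Nat.totient q : ℝ) * ψ q / q) →
      ∀ᵐ x : ℝ, {q : ℕ | 0 < q ∧ ∃ a : ℤ, |(q : ℝ) * x - a - γ| < ψ q}.Infinite) ∧
    (∀ (γ : ℝ) (ψ : ℕ → ℝ) (ε δ : ℝ), (∀ q, 0 ≤ ψ q) → 0 < ε → 0 < δ →
      ¬ Summable (fun q : ℕ => (Nat.totient q : ℝ) * ψ q / ((q : ℝ) *
        (if ψ q ≤ Real.exp (-(Real.log (Real.log ((q : ℝ) + 16)) ^ (1 + δ))) then 1
          else Real.log (3 + 1 / ψ q) ^ ε))) →
      ∀ᵐ x : ℝ, {q : ℕ | 0 < q ∧ ∃ a : ℤ, |(q : ℝ) * x - a - γ| < ψ q}.Infinite) := by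
  have h := Vale.Agent.P028.Tame.splitIDS_of_mainTame Vale.Agent.P028.Tame.mainTame
  refine ⟨?_, ?_, fun γ ψ ε δ hψ hε hδ hdiv => h γ ψ ε δ hψ hε hδ ?_⟩
  · exact Vale.Agent.P028.Tame.loglog_loss h
  · exact Vale.Agent.P028.Tame.no_loss_small h
  · exact hdiv

end Vale.Agent.Results.P028.LogLogDivergence
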